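import Mathlib

/-!
# Linear circuits over the complex numbers (problem P344)

A circuit on `n` inputs is a list of gates.  The gate at position `t` of the list may read the
constant `0`, an input `x i`, or the value of a gate at an earlier position `k < t`
(a reference to a position that has not been computed yet is read as the constant `0`,
which is itself a legal source, so every list of gates is a legal circuit of the same size).
-/

namespace Vale.Agent.Lib.P344

/-- What a gate may read: the constant `0`, the input `x i`, or the value of gate number `k`. -/
inductive Src (n : ℕ) where
  | zero : Src n
  | input (i : Fin n) : Src n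
  | gate (k : ℕ) : Src n

/-- A gate computes `u + v`, `u - v` or `c * u` for a fixed complex scalar `c`. -/
inductive Gate (n : ℕ) where
  | add (u v : Src n) : Gate n
  | sub (u v : Src n) : Gate n
  | smul (c : ℂ) (u : Src n) : Gate n

variable {n : ℕ} {M : Type*} [AddCommGroup M] [Module ℂ M]

/-- The value of a source, given the inputs `x` and the list `vals` of the values of the gates
computed so far (a position beyond the end of `vals` reads as `0`). -/
def Src.read (x : Fin n → M) (vals : List M) : Src n → M
  | .zero => 0
  | .input i => x i
  | .gate k => vals.getD k 0

/-- The value of a gate, given the inputs and the values of the earlier gates. -/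
def Gate.eval (x : Fin n → M) (vals : List M) : Gate n → M
  | .add u v => u.read x vals + v.read x vals
  | .sub u v => u.read x vals - v.read x vals
  | .smul c u => c • u.read x vals

/-- The list of the values of all gates of the circuit, in order, on the inputs `x`. -/
def run (x : Fin n → M) (gates : List (Gate n)) : List M :=
  gates.foldl (fun vals g => vals ++ [g.eval x vals]) []

/-- `true` exactly for the addition and subtraction gates. -/
def Gate.isSum : Gate n → Bool
  | .add _ _ => true
  | .sub _ _ => true
  | .smul _ _ => false

/-- `true` exactly for the scalar multiplication gates. -/
def Gate.isScalar : Gate n → Bool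
  | .add _ _ => false
  | .sub _ _ => false
  | .smul _ _ => true

@[simp] theorem run_nil (x : Fin n → M) : run x ([] : List (Gate n)) = [] := rfl

theorem run_concat (x : Fin n → M) (gates : List (Gate n)) (g : Gate n) :
    run x (gates ++ [g]) = run x gates ++ [g.eval x (run x gates)] := by
  simp [run, List.foldl_append]

theorem length_run (x : Fin n → M) (gates : List (Gate n)) :
    (run x gates).length = gates.length := by
  induction gates using List.reverseRecOn with
  | nil => simp
  | append_singleton gs g ih => simp [run_concat, ih]

omit [Module ℂ M] in
/-- The value of a source is `0`, an input, or one of the listed values. -/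
theorem Src.read_cases (x : Fin n → M) (vals : List M) (s : Src n) :
    s.read x vals = 0 ∨ (∃ i, s.read x vals = x i) ∨ s.read x vals ∈ vals := by
  cases s with
  | zero => exact Or.inl rfl
  | input i => exact Or.inr (Or.inl ⟨i, rfl⟩)
  | gate k =>
    by_cases hk : k < vals.length
    · right; right
      simp only [Src.read]
      rw [List.getD_eq_getElem _ _ hk]
      exact List.getElem_mem hk
    · left
      simp only [Src.read]
      exact List.getD_eq_default _ _ (by omega)

section linear

variable {N : Type*} [AddCommGroup N] [Module ℂ N]

theorem Src.read_map (f : M →ₗ[ℂ] N) (x : Fin n → M) (vals : List M) (s : Src n) :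
    s.read (fun i => f (x i)) (vals.map f) = f (s.read x vals) := by
  cases s with
  | zero => simp [Src.read]
  | input i => simp [Src.read]
  | gate k =>
    simp only [Src.read]
    by_cases hk : k < vals.length
    · rw [List.getD_eq_getElem _ _ hk, List.getD_eq_getElem _ _ (by simpa using hk)]
      simp
    · have h1 : vals.length ≤ k := by omega
      have h2 : (vals.map f).length ≤ k := by rw [List.length_map]; exact h1
      rw [List.getD_eq_default _ _ h1, List.getD_eq_default _ _ h2]
      simp

theorem Gate.eval_map (f : M →ₗ[ℂ] N) (x : Fin n → M) (vals : List M) (g : Gate n) :
    g.eval (fun i => f (x i)) (vals.map f) = f (g.eval x vals) := by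
  cases g with
  | add u v => simp [Gate.eval, Src.read_map]
  | sub u v => simp [Gate.eval, Src.read_map]
  | smul c u => simp [Gate.eval, Src.read_map]

theorem run_map (f : M →ₗ[ℂ] N) (x : Fin n → M) (gates : List (Gate n)) :
    run (fun i => f (x i)) gates = (run x gates).map f := by
  induction gates using List.reverseRecOn with
  | nil => simp
  | append_singleton gs g ih =>
    rw [run_concat, run_concat, ih, List.map_append, Gate.eval_map]
    simp

end linear

end Vale.Agent.Lib.P344
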