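import Mathlib

/-!
# Positive definite matrices: rank-one updates and a trace bound (used for P344)
-/

namespace Vale.Agent.Lib.P344

open Matrix
open scoped ComplexOrder

variable {d : ℕ}


/-- The real quadratic form `y ↦ Re (y* A y)` of a square complex matrix. -/
noncomputable def qf (A : Matrix (Fin d) (Fin d) ℂ) (y : Fin d → ℂ) : ℝ :=
  (star y ⬝ᵥ (A *ᵥ y)).re

theorem qf_nonneg {A : Matrix (Fin d) (Fin d) ℂ} (hA : A.PosDef) (y : Fin d → ℂ) : 0 ≤ qf A y := by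
  have h := hA.posSemidef.dotProduct_mulVec_nonneg y
  exact (Complex.nonneg_iff.mp h).1

theorem star_dot_star (a b : Fin d → ℂ) : star a ⬝ᵥ star b = star (a ⬝ᵥ b) := by
  simp [dotProduct, star_sum]

theorem qf_update (A : Matrix (Fin d) (Fin d) ℂ) (ρ y : Fin d → ℂ) (c : ℝ) :
    qf (A + (c : ℂ) • vecMulVec (star ρ) ρ) y = qf A y + c * ‖ρ ⬝ᵥ y‖ ^ 2 := by
  unfold qf
  rw [add_mulVec, dotProduct_add, Complex.add_re]
  congr 1
  rw [smul_mulVec, dotProduct_smul, vecMulVec_mulVec, op_smul_eq_smul, dotProduct_smul,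
    star_dot_star, dotProduct_comm y ρ]
  have h : (ρ ⬝ᵥ y) * star (ρ ⬝ᵥ y) = ((‖ρ ⬝ᵥ y‖ ^ 2 : ℝ) : ℂ) := by
    rw [Complex.star_def, Complex.mul_conj, Complex.normSq_eq_norm_sq]
  simp only [smul_eq_mul]
  rw [h, ← Complex.ofReal_mul, Complex.ofReal_re]

theorem lev_le {A : Matrix (Fin d) (Fin d) ℂ} (hA : A.PosDef) (ρ : Fin d → ℂ) (L : ℝ) (hL : 0 ≤ L)
    (h : ∀ y, ‖ρ ⬝ᵥ y‖ ^ 2 ≤ L * qf A y) :
    (ρ ⬝ᵥ (A⁻¹ *ᵥ star ρ)).im = 0 ∧ 0 ≤ (ρ ⬝ᵥ (A⁻¹ *ᵥ star ρ)).re ∧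
      (ρ ⬝ᵥ (A⁻¹ *ᵥ star ρ)).re ≤ L := by
  have hpos := hA.inv.posSemidef.dotProduct_mulVec_nonneg (star ρ)
  rw [star_star] at hpos
  obtain ⟨hre, him⟩ := Complex.nonneg_iff.mp hpos
  refine ⟨him.symm, hre, ?_⟩
  have hy := h (A⁻¹ *ᵥ star ρ)
  have hdet : IsUnit A.det := (Matrix.isUnit_iff_isUnit_det A).mp hA.isUnit
  have hq : qf A (A⁻¹ *ᵥ star ρ) = (ρ ⬝ᵥ (A⁻¹ *ᵥ star ρ)).re := by
    unfold qf
    rw [mulVec_mulVec, Matrix.mul_nonsing_inv A hdet, one_mulVec]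
    have : star (A⁻¹ *ᵥ star ρ) ⬝ᵥ star ρ = star ((A⁻¹ *ᵥ star ρ) ⬝ᵥ ρ) := star_dot_star _ _
    rw [this, dotProduct_comm, Complex.star_def, Complex.conj_re]
  rw [hq] at hy
  set ℓ := ρ ⬝ᵥ (A⁻¹ *ᵥ star ρ) with hℓ
  have hnorm : ‖ℓ‖ = ℓ.re := by
    rw [← Complex.re_add_im ℓ, ← him]
    simp [abs_of_nonneg hre]
  rw [hnorm] at hy
  by_contra hcon
  push Not at hcon
  nlinarith



theorem det_rank_one (A : Matrix (Fin d) (Fin d) ℂ) (hdet : IsUnit A.det) (ρ : Fin d → ℂ) (c : ℂ) :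
    (A + c • vecMulVec (star ρ) ρ).det = A.det * (1 + c * (ρ ⬝ᵥ (A⁻¹ *ᵥ star ρ))) := by
  have hcol : A * replicateCol (Fin 1) (A⁻¹ *ᵥ (c • star ρ)) = replicateCol (Fin 1) (c • star ρ) := by
    ext i j
    have h := congrFun (mulVec_mulVec (c • star ρ) A A⁻¹) i
    rw [Matrix.mul_nonsing_inv A hdet, one_mulVec] at h
    simp only [replicateCol_apply]
    rw [← h]
    simp [Matrix.mul_apply, mulVec, dotProduct]
  have h1 : A + c • vecMulVec (star ρ) ρ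
      = A * (1 + replicateCol (Fin 1) (A⁻¹ *ᵥ (c • star ρ)) * replicateRow (Fin 1) ρ) := by
    rw [Matrix.mul_add, Matrix.mul_one, ← Matrix.mul_assoc, hcol]
    congr 1
    ext i j
    simp [vecMulVec, Matrix.mul_apply, mul_assoc]
  have h3 : (1 + replicateCol (Fin 1) (A⁻¹ *ᵥ (c • star ρ)) * replicateRow (Fin 1) ρ).det
      = 1 + ρ ⬝ᵥ (A⁻¹ *ᵥ (c • star ρ)) := by
    exact det_one_add_replicateCol_mul_replicateRow (ι := Fin 1) (A⁻¹ *ᵥ (c • star ρ)) ρ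
  rw [h1, det_mul, h3]
  congr 2
  rw [mulVec_smul, dotProduct_smul, smul_eq_mul]


theorem update_step (A : Matrix (Fin d) (Fin d) ℂ) (hA : A.PosDef) (ρ : Fin d → ℂ) (L : ℝ)
    (hL : 1 ≤ L) (h : ∀ y, ‖ρ ⬝ᵥ y‖ ^ 2 ≤ L * qf A y) :
    ∃ A' : Matrix (Fin d) (Fin d) ℂ, A'.PosDef ∧ (∀ y, qf A y ≤ qf A' y) ∧
      (∀ y, ‖ρ ⬝ᵥ y‖ ^ 2 ≤ qf A' y) ∧ A'.det.re ≤ L * A.det.re := by
  have hL0 : 0 < L := by linarith
  set c : ℝ := 1 - 1 / L with hc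
  have hc0 : 0 ≤ c := by
    rw [hc, sub_nonneg, div_le_one hL0]; exact hL
  refine ⟨A + (c : ℂ) • vecMulVec (star ρ) ρ, ?_, ?_, ?_, ?_⟩
  · apply hA.add_posSemidef
    apply (posSemidef_vecMulVec_star_self ρ).smul
    exact_mod_cast hc0
  · intro y
    rw [qf_update]
    have : 0 ≤ c * ‖ρ ⬝ᵥ y‖ ^ 2 := mul_nonneg hc0 (sq_nonneg _)
    linarith
  · intro y
    rw [qf_update]
    have h1 := h y
    have h2 : ‖ρ ⬝ᵥ y‖ ^ 2 / L ≤ qf A y := by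
      rw [div_le_iff₀ hL0]; linarith
    have h3 : ‖ρ ⬝ᵥ y‖ ^ 2 = ‖ρ ⬝ᵥ y‖ ^ 2 / L + c * ‖ρ ⬝ᵥ y‖ ^ 2 := by
      rw [hc]; field_simp; ring
    linarith
  · have hdet : IsUnit A.det := (Matrix.isUnit_iff_isUnit_det A).mp hA.isUnit
    rw [det_rank_one A hdet]
    obtain ⟨him, hre, hle⟩ := lev_le hA ρ L hL0.le h
    have hdpos := hA.det_pos
    obtain ⟨hdre, hdim⟩ := Complex.pos_iff.mp hdpos
    rw [Complex.mul_re]
    simp only [Complex.add_re, Complex.one_re, Complex.add_im, Complex.one_im, Complex.mul_re,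
      Complex.ofReal_re, Complex.ofReal_im, Complex.mul_im, him, ← hdim]
    simp only [zero_mul, mul_zero, sub_zero, add_zero]
    have h4 : 1 + c * (ρ ⬝ᵥ A⁻¹ *ᵥ star ρ).re ≤ L := by
      have : c * (ρ ⬝ᵥ A⁻¹ *ᵥ star ρ).re ≤ c * L := mul_le_mul_of_nonneg_left hle hc0
      have h5 : c * L = L - 1 := by rw [hc]; field_simp
      linarith
    calc A.det.re * (1 + c * (ρ ⬝ᵥ A⁻¹ *ᵥ star ρ).re) ≤ A.det.re * L :=
          mul_le_mul_of_nonneg_left h4 hdre.le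
      _ = L * A.det.re := mul_comm _ _

theorem det_ge_of_trace_inv_le (A : Matrix (Fin d) (Fin d) ℂ) (hA : A.PosDef)
    (h : (A⁻¹).trace.re ≤ 1) : (d : ℝ) ^ d ≤ A.det.re := by
  rcases Nat.eq_zero_or_pos d with hd | hd
  · subst hd
    simp
  have hB := hA.inv
  have hBh := hB.isHermitian
  have hpos : ∀ i, 0 < hBh.eigenvalues i := fun i => hB.eigenvalues_pos i
  have htr : ∑ i, hBh.eigenvalues i ≤ 1 := by
    have h1 := hBh.trace_eq_sum_eigenvalues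
    rw [h1] at h
    have h7 : (∑ i, ((hBh.eigenvalues i : ℝ) : ℂ)) = ((∑ i, hBh.eigenvalues i : ℝ) : ℂ) := by
      push_cast; rfl
    have h8 : (∑ i, (RCLike.ofReal (hBh.eigenvalues i) : ℂ)) = ∑ i, ((hBh.eigenvalues i : ℝ) : ℂ) := rfl
    rw [h8, h7, Complex.ofReal_re] at h
    exact h
  have hdetB : (A⁻¹).det = ((∏ i, hBh.eigenvalues i : ℝ) : ℂ) := by
    rw [hBh.det_eq_prod_eigenvalues, Complex.ofReal_prod]
    rfl
  have hPpos : 0 < ∏ i, hBh.eigenvalues i := Finset.prod_pos (fun i _ => hpos i)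
  -- AM-GM
  have hamgm := Real.geom_mean_le_arith_mean Finset.univ (fun _ => (1 : ℝ)) hBh.eigenvalues
    (fun _ _ => zero_le_one) (by simp [hd]) (fun i _ => (hpos i).le)
  simp only [Real.rpow_one, Finset.sum_const, Finset.card_univ, Fintype.card_fin, nsmul_eq_mul,
    mul_one, one_mul] at hamgm
  have hdR : (0 : ℝ) < d := by exact_mod_cast hd
  have h2 : ∏ i, hBh.eigenvalues i ≤ (1 / (d : ℝ)) ^ d := by
    have h3 : (∏ i, hBh.eigenvalues i) = ((∏ i, hBh.eigenvalues i) ^ ((d : ℝ)⁻¹)) ^ d := by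
      rw [← Real.rpow_natCast, ← Real.rpow_mul hPpos.le, inv_mul_cancel₀ hdR.ne', Real.rpow_one]
    rw [h3]
    apply pow_le_pow_left₀ (Real.rpow_nonneg hPpos.le _)
    refine hamgm.trans ?_
    exact div_le_div_of_nonneg_right htr hdR.le
  -- det A * det A⁻¹ = 1
  have hdet : IsUnit A.det := (Matrix.isUnit_iff_isUnit_det A).mp hA.isUnit
  have hmul : A.det * (A⁻¹).det = 1 := by
    rw [← det_mul, Matrix.mul_nonsing_inv A hdet, det_one]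
  obtain ⟨hdre, hdim⟩ := Complex.pos_iff.mp hA.det_pos
  have hAdet : A.det = ((A.det.re : ℝ) : ℂ) := by
    apply Complex.ext
    · simp
    · simp [← hdim]
  rw [hdetB, hAdet, ← Complex.ofReal_mul] at hmul
  have hmul' : A.det.re * ∏ i, hBh.eigenvalues i = 1 := by exact_mod_cast hmul
  have h5 : (d : ℝ) ^ d * (1 / (d : ℝ)) ^ d = 1 := by
    rw [← mul_pow, mul_one_div_cancel hdR.ne', one_pow]
  have h6 : (d : ℝ) ^ d * ∏ i, hBh.eigenvalues i ≤ 1 := by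
    calc (d : ℝ) ^ d * ∏ i, hBh.eigenvalues i ≤ (d : ℝ) ^ d * (1 / (d : ℝ)) ^ d :=
          mul_le_mul_of_nonneg_left h2 (by positivity)
      _ = 1 := h5
  rw [← hmul'] at h6
  exact le_of_mul_le_mul_right h6 hPpos


end Vale.Agent.Lib.P344
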