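import Vale.Agent.Lib.P344.Circuit

/-!
# Lower bounds for linear circuits computing the discrete Fourier transform (P344)
-/

namespace Vale.Agent.Lib.P344

open Finset Polynomial

variable {n : ℕ}

/-- The standard basis vectors of `ℂ^n`. -/
def ev (n : ℕ) : Fin n → (Fin n → ℂ) := fun i => Pi.single i 1

/-- A vector all of whose coordinates are nonzero. -/
def Full (v : Fin n → ℂ) : Prop := ∀ i, v i ≠ 0

/-- The functional `v ↦ ∑ k, x k * v k`. -/
def dotL (x : Fin n → ℂ) : (Fin n → ℂ) →ₗ[ℂ] ℂ :=
  ∑ k, x k • (LinearMap.proj k : (Fin n → ℂ) →ₗ[ℂ] ℂ)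

theorem dotL_apply (x v : Fin n → ℂ) : dotL x v = ∑ k, x k * v k := by
  simp [dotL, LinearMap.sum_apply]

theorem dotL_ev (x : Fin n → ℂ) (i : Fin n) : dotL x (ev n i) = x i := by
  simp [dotL_apply, ev, Pi.single_apply]

theorem eval_eq_dotL (x : Fin n → ℂ) (gates : List (Gate n)) (s : Src n) :
    s.read x (run x gates) = dotL x (s.read (ev n) (run (ev n) gates)) := by
  have h1 : x = fun i => dotL x (ev n i) := by funext i; rw [dotL_ev]
  conv_lhs => rw [h1]
  rw [run_map, Src.read_map]

/-- If a source computes the linear form with coefficients `r` on every input, then its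
symbolic value (on the standard basis) is the coefficient vector `r`. -/
theorem out_vec (gates : List (Gate n)) (s : Src n) (r : Fin n → ℂ)
    (h : ∀ x : Fin n → ℂ, s.read x (run x gates) = ∑ k, r k * x k) :
    s.read (ev n) (run (ev n) gates) = r := by
  funext k
  have h2 := h (Pi.single k 1)
  rw [eval_eq_dotL, dotL_apply] at h2
  simpa [Pi.single_apply] using h2

theorem not_full_zero (hn : 1 ≤ n) : ¬ Full (0 : Fin n → ℂ) := fun h => h ⟨0, hn⟩ rfl

theorem not_full_ev (hn : 2 ≤ n) (i : Fin n) : ¬ Full (ev n i) := by
  intro h
  have hnt : Nontrivial (Fin n) := Fin.nontrivial_iff_two_le.mpr hn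
  obtain ⟨j, hj⟩ := exists_ne i
  exact h j (by simp [ev, hj])

/-- A full value of a source is one of the gate values. -/
theorem full_src_mem (hn : 2 ≤ n) (vals : List (Fin n → ℂ)) (s : Src n)
    (h : Full (s.read (ev n) vals)) : s.read (ev n) vals ∈ vals := by
  rcases Src.read_cases (ev n) vals s with h0 | ⟨i, hi⟩ | hm
  · rw [h0] at h; exact absurd h (not_full_zero (by omega))
  · rw [hi] at h; exact absurd h (not_full_ev hn i)
  · exact hm

theorem exists_first_full (gates : List (Gate n))
    (h : ∃ v ∈ run (ev n) gates, Full v) :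
    ∃ G₁ g G₂, gates = G₁ ++ g :: G₂ ∧ (∀ v ∈ run (ev n) G₁, ¬ Full v) ∧
      Full (g.eval (ev n) (run (ev n) G₁)) := by
  induction gates using List.reverseRecOn with
  | nil => simp at h
  | append_singleton gs g ih =>
    by_cases h' : ∃ v ∈ run (ev n) gs, Full v
    · obtain ⟨G₁, g', G₂, rfl, h1, h2⟩ := ih h'
      exact ⟨G₁, g', G₂ ++ [g], by simp, h1, h2⟩
    · have h'' : ∀ v ∈ run (ev n) gs, ¬ Full v := fun v hv hf => h' ⟨v, hv, hf⟩
      refine ⟨gs, g, [], rfl, h'', ?_⟩
      obtain ⟨v, hv, hf⟩ := h
      rw [run_concat, List.mem_append, List.mem_singleton] at hv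
      rcases hv with hv | rfl
      · exact absurd hf (h'' v hv)
      · exact hf

/-- All nonzero coordinates of `v` lie in one class of the labelling `cls`. -/
def Mono (cls : Fin n → Fin n) (v : Fin n → ℂ) : Prop :=
  ∀ i j, v i ≠ 0 → v j ≠ 0 → cls i = cls j

theorem mono_zero (cls : Fin n → Fin n) : Mono cls 0 := fun _ _ hi _ => absurd rfl hi

theorem mono_ev (cls : Fin n → Fin n) (k : Fin n) : Mono cls (ev n k) := by
  intro i j hi hj
  have h1 : i = k := by
    by_contra hne
    exact hi (by simp [ev, hne])
  have h2 : j = k := by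
    by_contra hne
    exact hj (by simp [ev, hne])
  rw [h1, h2]

theorem mono_src (cls : Fin n → Fin n) (vals : List (Fin n → ℂ))
    (h : ∀ v ∈ vals, Mono cls v) (s : Src n) : Mono cls (s.read (ev n) vals) := by
  rcases Src.read_cases (ev n) vals s with h0 | ⟨i, hi⟩ | hm
  · rw [h0]; exact mono_zero cls
  · rw [hi]; exact mono_ev cls i
  · exact h _ hm

/-- Merging two classes: the key step of the partition argument. -/
theorem mono_step (cls : Fin n → Fin n) (a b w : Fin n → ℂ) (ha : Mono cls a) (hb : Mono cls b)
    (hw : ∀ i, w i ≠ 0 → a i ≠ 0 ∨ b i ≠ 0) :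
    ∃ cls' : Fin n → Fin n, (∀ v, Mono cls v → Mono cls' v) ∧ Mono cls' w ∧
      (univ.image cls).card ≤ (univ.image cls').card + 1 := by
  by_cases hex : (∃ i₀, a i₀ ≠ 0) ∧ (∃ j₀, b j₀ ≠ 0)
  · obtain ⟨⟨i₀, hi₀⟩, ⟨j₀, hj₀⟩⟩ := hex
    refine ⟨fun i => if cls i = cls j₀ then cls i₀ else cls i, ?_, ?_, ?_⟩
    · intro v hv i j hi hj
      simp only [hv i j hi hj]
    · intro i j hi hj
      have key : ∀ i, w i ≠ 0 → (if cls i = cls j₀ then cls i₀ else cls i) = cls i₀ := by
        intro i hi
        rcases hw i hi with h | h
        · rw [ha i i₀ h hi₀]; simp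
        · rw [hb i j₀ h hj₀]; simp
      show (if cls i = cls j₀ then cls i₀ else cls i) = (if cls j = cls j₀ then cls i₀ else cls j)
      rw [key i hi, key j hj]
    · have himg : univ.image (fun i => if cls i = cls j₀ then cls i₀ else cls i)
          = (univ.image cls).image (fun c => if c = cls j₀ then cls i₀ else c) := by
        rw [Finset.image_image]; rfl
      rw [himg]
      have hsub : ((univ.image cls).erase (cls j₀)).image (fun c => if c = cls j₀ then cls i₀ else c)
          ⊆ (univ.image cls).image (fun c => if c = cls j₀ then cls i₀ else c) :=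
        Finset.image_subset_image (Finset.erase_subset _ _)
      have hinj : Set.InjOn (fun c => if c = cls j₀ then cls i₀ else c)
          (((univ.image cls).erase (cls j₀) : Finset (Fin n)) : Set (Fin n)) := by
        intro x hx y hy hxy
        have hx' : x ≠ cls j₀ := (Finset.mem_erase.mp hx).1
        have hy' : y ≠ cls j₀ := (Finset.mem_erase.mp hy).1
        simpa [hx', hy'] using hxy
      have hc := Finset.card_le_card hsub
      rw [Finset.card_image_of_injOn hinj] at hc
      have := Finset.pred_card_le_card_erase (s := univ.image cls) (a := cls j₀)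
      omega
  · refine ⟨cls, fun v hv => hv, ?_, by omega⟩
    intro i j hi hj
    rw [not_and_or, not_exists, not_exists] at hex
    rcases hex with h | h
    · have h1 : b i ≠ 0 := by
        rcases hw i hi with h' | h'
        · exact absurd h' (h i)
        · exact h'
      have h2 : b j ≠ 0 := by
        rcases hw j hj with h' | h'
        · exact absurd h' (h j)
        · exact h'
      exact hb i j h1 h2
    · have h1 : a i ≠ 0 := by
        rcases hw i hi with h' | h'
        · exact h'
        · exact absurd h' (h i)
      have h2 : a j ≠ 0 := by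
        rcases hw j hj with h' | h'
        · exact h'
        · exact absurd h' (h j)
      exact ha i j h1 h2

theorem partition_inv (gates : List (Gate n)) :
    ∃ cls : Fin n → Fin n, (∀ v ∈ run (ev n) gates, Mono cls v) ∧
      n ≤ (univ.image cls).card + gates.countP Gate.isSum := by
  induction gates using List.reverseRecOn with
  | nil =>
    refine ⟨id, by simp, ?_⟩
    simp
  | append_singleton gs g ih =>
    obtain ⟨cls, hmono, hcard⟩ := ih
    rw [run_concat, List.countP_append]
    have binary : ∀ (u v : Src n) (w : Fin n → ℂ),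
        (∀ i, w i ≠ 0 → (u.read (ev n) (run (ev n) gs)) i ≠ 0 ∨ (v.read (ev n) (run (ev n) gs)) i ≠ 0) →
        ∃ cls' : Fin n → Fin n, (∀ v ∈ run (ev n) gs ++ [w], Mono cls' v) ∧
          n ≤ (univ.image cls').card + (gs.countP Gate.isSum + 1) := by
      intro u v w hw
      obtain ⟨cls', h1, h2, h3⟩ := mono_step cls _ _ w (mono_src cls _ hmono u) (mono_src cls _ hmono v) hw
      refine ⟨cls', ?_, by omega⟩
      intro x hx
      rw [List.mem_append, List.mem_singleton] at hx
      rcases hx with hx | rfl
      · exact h1 x (hmono x hx)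
      · exact h2
    cases g with
    | add u v =>
      have := binary u v ((Gate.add u v).eval (ev n) (run (ev n) gs)) (by
        intro i hi
        by_contra hcon
        rw [not_or, not_not, not_not] at hcon
        apply hi
        simp [Gate.eval, hcon.1, hcon.2])
      simpa [Gate.isSum] using this
    | sub u v =>
      have := binary u v ((Gate.sub u v).eval (ev n) (run (ev n) gs)) (by
        intro i hi
        by_contra hcon
        rw [not_or, not_not, not_not] at hcon
        apply hi
        simp [Gate.eval, hcon.1, hcon.2])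
      simpa [Gate.isSum] using this
    | smul c u =>
      refine ⟨cls, ?_, by simpa [Gate.isSum] using hcard⟩
      intro x hx
      rw [List.mem_append, List.mem_singleton] at hx
      rcases hx with hx | rfl
      · exact hmono x hx
      · intro i j hi hj
        have hu := mono_src cls _ hmono u
        apply hu i j
        · intro h0; apply hi; simp [Gate.eval, h0]
        · intro h0; apply hj; simp [Gate.eval, h0]

theorem tail_inv (hn : 2 ≤ n) (G₁ : List (Gate n)) (h1 : ∀ v ∈ run (ev n) G₁, ¬ Full v)
    (G' : List (Gate n)) :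
    ∃ B : Finset (Fin n → ℂ), B.card ≤ G'.countP Gate.isSum ∧
      ∀ v ∈ run (ev n) (G₁ ++ G'), Full v → ∃ b ∈ B, ∃ c : ℂ, v = c • b := by
  classical
  induction G' using List.reverseRecOn with
  | nil =>
    refine ⟨∅, by simp, ?_⟩
    intro v hv hf
    rw [List.append_nil] at hv
    exact absurd hf (h1 v hv)
  | append_singleton gs g ih =>
    obtain ⟨B, hB, hval⟩ := ih
    rw [← List.append_assoc, run_concat, List.countP_append]
    have binary : ∀ w : Fin n → ℂ,
        ∃ B' : Finset (Fin n → ℂ), B'.card ≤ gs.countP Gate.isSum + 1 ∧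
          ∀ v ∈ run (ev n) (G₁ ++ gs) ++ [w], Full v → ∃ b ∈ B', ∃ c : ℂ, v = c • b := by
      intro w
      refine ⟨insert w B, (Finset.card_insert_le _ _).trans (by omega), ?_⟩
      intro v hv hf
      rw [List.mem_append, List.mem_singleton] at hv
      rcases hv with hv | rfl
      · obtain ⟨b, hb, c, hc⟩ := hval v hv hf
        exact ⟨b, Finset.mem_insert_of_mem hb, c, hc⟩
      · exact ⟨v, Finset.mem_insert_self _ _, 1, by simp⟩
    cases g with
    | add u v => simpa [Gate.isSum] using binary ((Gate.add u v).eval (ev n) (run (ev n) (G₁ ++ gs)))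
    | sub u v => simpa [Gate.isSum] using binary ((Gate.sub u v).eval (ev n) (run (ev n) (G₁ ++ gs)))
    | smul c u =>
      refine ⟨B, by simpa [Gate.isSum] using hB, ?_⟩
      intro v hv hf
      rw [List.mem_append, List.mem_singleton] at hv
      rcases hv with hv | rfl
      · exact hval v hv hf
      · have hfa : Full (u.read (ev n) (run (ev n) (G₁ ++ gs))) := by
          intro i h0
          apply hf i
          simp [Gate.eval, h0]
        have hmem := full_src_mem hn _ u hfa
        obtain ⟨b, hb, c', hc'⟩ := hval _ hmem hfa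
        refine ⟨b, hb, c * c', ?_⟩
        show c • (u.read (ev n) (run (ev n) (G₁ ++ gs))) = (c * c') • b
        rw [hc', smul_smul]

/-- The number of addition and subtraction gates: if the circuit has `n` sources whose values are
pairwise non-proportional vectors with all coordinates nonzero, it has at least `2n - 2`
addition/subtraction gates. -/
theorem sum_gates_bound (hn : 2 ≤ n) (gates : List (Gate n)) (out : Fin n → Src n)
    (r : Fin n → Fin n → ℂ)
    (hr : ∀ j, (out j).read (ev n) (run (ev n) gates) = r j)
    (hfull : ∀ j, Full (r j))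
    (hindep : ∀ j j' (c : ℂ), r j = c • r j' → j = j') :
    2 * n ≤ gates.countP Gate.isSum + 2 := by
  classical
  have hmem : ∀ j, r j ∈ run (ev n) gates := by
    intro j
    rw [← hr j]
    apply full_src_mem hn
    rw [hr j]; exact hfull j
  have hex : ∃ v ∈ run (ev n) gates, Full v := ⟨r ⟨0, by omega⟩, hmem _, hfull _⟩
  obtain ⟨G₁, g, G₂, rfl, hG₁, hg⟩ := exists_first_full gates hex
  obtain ⟨cls, hmono, hcard⟩ := partition_inv G₁
  -- the image of `cls` has at most two elements
  have himg : (univ.image cls).card ≤ 2 := by
    have two : ∀ (u v : Src n),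
        (∀ i, (u.read (ev n) (run (ev n) G₁)) i ≠ 0 ∨ (v.read (ev n) (run (ev n) G₁)) i ≠ 0) →
        (univ.image cls).card ≤ 2 := by
      intro u v hcov
      have ha := mono_src cls _ hmono u
      have hb := mono_src cls _ hmono v
      let i₀ : Fin n := if h : ∃ i, (u.read (ev n) (run (ev n) G₁)) i ≠ 0 then h.choose else ⟨0, by omega⟩
      let j₀ : Fin n := if h : ∃ i, (v.read (ev n) (run (ev n) G₁)) i ≠ 0 then h.choose else ⟨0, by omega⟩
      have hsub : univ.image cls ⊆ {cls i₀, cls j₀} := by
        intro x hx
        obtain ⟨i, -, rfl⟩ := Finset.mem_image.mp hx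
        rw [Finset.mem_insert, Finset.mem_singleton]
        rcases hcov i with h | h
        · left
          have hex : ∃ i, (u.read (ev n) (run (ev n) G₁)) i ≠ 0 := ⟨i, h⟩
          have : i₀ = hex.choose := by simp only [i₀, dif_pos hex]
          rw [this]
          exact ha i _ h hex.choose_spec
        · right
          have hex : ∃ i, (v.read (ev n) (run (ev n) G₁)) i ≠ 0 := ⟨i, h⟩
          have : j₀ = hex.choose := by simp only [j₀, dif_pos hex]
          rw [this]
          exact hb i _ h hex.choose_spec
      exact (Finset.card_le_card hsub).trans Finset.card_le_two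
    cases g with
    | add u v =>
      apply two u v
      intro i
      by_contra hcon
      rw [not_or, not_not, not_not] at hcon
      apply hg i
      simp [Gate.eval, hcon.1, hcon.2]
    | sub u v =>
      apply two u v
      intro i
      by_contra hcon
      rw [not_or, not_not, not_not] at hcon
      apply hg i
      simp [Gate.eval, hcon.1, hcon.2]
    | smul c u =>
      exfalso
      have hfa : Full (u.read (ev n) (run (ev n) G₁)) := by
        intro i h0
        apply hg i
        simp [Gate.eval, h0]
      exact hG₁ _ (full_src_mem hn _ u hfa) hfa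
  obtain ⟨B, hB, hval⟩ := tail_inv hn G₁ hG₁ (g :: G₂)
  have hch : ∀ j, ∃ b ∈ B, ∃ c : ℂ, r j = c • b := fun j => hval _ (hmem j) (hfull j)
  choose b hbB c hc using hch
  have hinj : Set.InjOn b (univ : Finset (Fin n)) := by
    intro j _ j' _ hjj'
    apply hindep j j' (c j * (c j')⁻¹)
    have hne : c j' ≠ 0 := by
      intro h0
      have := hfull j' ⟨0, by omega⟩
      rw [hc j', h0] at this
      simp at this
    rw [hc j, hc j', smul_smul, hjj', mul_assoc, inv_mul_cancel₀ hne, mul_one]
  have hn' : n ≤ B.card := by
    have := Finset.card_le_card_of_injOn b (fun j _ => hbB j) hinj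
    simpa using this
  rw [List.countP_append]
  omega

/-- The span argument for scalar gates. -/
theorem scalar_span (gates : List (Gate n)) :
    ∃ W : Finset (Fin n → ℂ), W.card ≤ gates.countP Gate.isScalar ∧
      ∀ v ∈ run (ev n) gates,
        v ∈ Submodule.span ℚ (Set.range (ev n) ∪ (W : Set (Fin n → ℂ))) := by
  classical
  induction gates using List.reverseRecOn with
  | nil => exact ⟨∅, by simp, by simp⟩
  | append_singleton gs g ih =>
    obtain ⟨W, hW, hval⟩ := ih
    rw [run_concat, List.countP_append]
    have hsrc : ∀ s : Src n, s.read (ev n) (run (ev n) gs) ∈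
        Submodule.span ℚ (Set.range (ev n) ∪ (W : Set (Fin n → ℂ))) := by
      intro s
      rcases Src.read_cases (ev n) (run (ev n) gs) s with h0 | ⟨i, hi⟩ | hm
      · rw [h0]; exact Submodule.zero_mem _
      · rw [hi]; exact Submodule.subset_span (Or.inl ⟨i, rfl⟩)
      · exact hval _ hm
    cases g with
    | add u v =>
      refine ⟨W, by simpa [Gate.isScalar] using hW, ?_⟩
      intro x hx
      rw [List.mem_append, List.mem_singleton] at hx
      rcases hx with hx | rfl
      · exact hval x hx
      · exact Submodule.add_mem _ (hsrc u) (hsrc v)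
    | sub u v =>
      refine ⟨W, by simpa [Gate.isScalar] using hW, ?_⟩
      intro x hx
      rw [List.mem_append, List.mem_singleton] at hx
      rcases hx with hx | rfl
      · exact hval x hx
      · exact Submodule.sub_mem _ (hsrc u) (hsrc v)
    | smul c u =>
      refine ⟨insert ((Gate.smul c u).eval (ev n) (run (ev n) gs)) W,
        (Finset.card_insert_le _ _).trans (by simpa [Gate.isScalar] using hW), ?_⟩
      intro x hx
      rw [List.mem_append, List.mem_singleton] at hx
      rcases hx with hx | rfl
      · refine Submodule.span_mono ?_ (hval x hx)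
        intro y hy
        rcases hy with hy | hy
        · exact Or.inl hy
        · exact Or.inr (by simp [hy])
      · exact Submodule.subset_span (Or.inr (by simp))

end Vale.Agent.Lib.P344
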