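import Vale.Agent.Lib.P344.Lower

/-!
# The rational rank of the Fourier rows modulo the rational vectors (P344)
-/

namespace Vale.Agent.Lib.P344

open Finset Polynomial

variable {n : ℕ}

/-- The polynomial with coefficients `c`. -/
noncomputable def polyOf (c : Fin n → ℚ) : ℚ[X] := ∑ j : Fin n, monomial (j : ℕ) (c j)

theorem aeval_polyOf (c : Fin n → ℚ) (z : ℂ) :
    aeval z (polyOf c) = ∑ j : Fin n, (c j : ℂ) * z ^ (j : ℕ) := by
  simp [polyOf, aeval_monomial]

theorem coeff_polyOf (c : Fin n → ℚ) (j : Fin n) : (polyOf c).coeff (j : ℕ) = c j := by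
  simp only [polyOf, finsetSum_coeff, coeff_monomial]
  rw [Finset.sum_eq_single j]
  · simp
  · intro b _ hb
    rw [if_neg]
    intro h
    exact hb (Fin.ext h)
  · simp

theorem coeff_polyOf_ge (c : Fin n → ℚ) (m : ℕ) (hm : n ≤ m) : (polyOf c).coeff m = 0 := by
  simp only [polyOf, finsetSum_coeff, coeff_monomial]
  apply Finset.sum_eq_zero
  intro j _
  rw [if_neg]
  have := j.isLt
  omega

/-- Two powers of a primitive root with the same gcd with `n` have the same minimal polynomial. -/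
theorem minpoly_pow_eq (hn : 0 < n) (ζ : ℂ) (hζ : IsPrimitiveRoot ζ n) (a b : ℕ)
    (hab : Nat.gcd n a = Nat.gcd n b) : minpoly ℚ (ζ ^ a) = minpoly ℚ (ζ ^ b) := by
  have hfin : IsOfFinOrder ζ := hζ.isOfFinOrder hn.ne'
  have hord : orderOf ζ = n := hζ.eq_orderOf.symm
  have ha : orderOf (ζ ^ a) = n / Nat.gcd n a := by rw [hfin.orderOf_pow, hord]
  have hb : orderOf (ζ ^ b) = n / Nat.gcd n b := by rw [hfin.orderOf_pow, hord]
  have hpa : IsPrimitiveRoot (ζ ^ a) (n / Nat.gcd n a) := ha ▸ IsPrimitiveRoot.orderOf (ζ ^ a)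
  have hpb : IsPrimitiveRoot (ζ ^ b) (n / Nat.gcd n a) := by
    rw [hab]; exact hb ▸ IsPrimitiveRoot.orderOf (ζ ^ b)
  have hpos : 0 < n / Nat.gcd n a :=
    Nat.div_pos (Nat.le_of_dvd hn (Nat.gcd_dvd_left n a)) (Nat.gcd_pos_of_pos_left a hn)
  rw [← cyclotomic_eq_minpoly_rat hpa hpos, ← cyclotomic_eq_minpoly_rat hpb hpos]

/-- The rational relations between the Fourier rows and the rational vectors. -/
noncomputable def relMap (ζ : ℂ) : ((Fin n → ℚ) × (Fin n → ℚ)) →ₗ[ℚ] (Fin n → ℂ) where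
  toFun p := fun k => ∑ j : Fin n, (p.1 j : ℂ) * ζ ^ ((j : ℕ) * (k : ℕ)) + (p.2 k : ℂ)
  map_add' p q := by
    funext k
    simp only [Prod.fst_add, Prod.snd_add, Pi.add_apply, Rat.cast_add, add_mul,
      Finset.sum_add_distrib]
    ring
  map_smul' q p := by
    funext k
    simp only [Prod.smul_fst, Prod.smul_snd, Pi.smul_apply, smul_eq_mul, Rat.cast_mul,
      RingHom.id_apply, Rat.smul_def, mul_add, Finset.mul_sum]
    congr 1
    apply Finset.sum_congr rfl
    intro j _
    ring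

theorem relMap_apply (ζ : ℂ) (p : (Fin n → ℚ) × (Fin n → ℚ)) (k : Fin n) :
    relMap ζ p k = ∑ j : Fin n, (p.1 j : ℂ) * ζ ^ ((j : ℕ) * (k : ℕ)) + (p.2 k : ℂ) := rfl

theorem relMap_eq (ζ : ℂ) (p : (Fin n → ℚ) × (Fin n → ℚ)) :
    relMap ζ p = ∑ j : Fin n, (p.1 j) • (fun k : Fin n => ζ ^ ((j : ℕ) * (k : ℕ)))
      + ∑ k : Fin n, (p.2 k) • ev n k := by
  funext k
  simp only [relMap_apply, Pi.add_apply, Finset.sum_apply, Pi.smul_apply, Rat.smul_def, ev,
    Pi.single_apply, mul_ite, mul_one, mul_zero, Finset.sum_ite_eq, Finset.mem_univ, if_true]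

/-- The index in `Fin n` attached to a divisor of `n` (the divisor `n` itself goes to `0`). -/
def divIdx (hn : 0 < n) (g : n.divisors) : Fin n := ⟨(g : ℕ) % n, Nat.mod_lt _ hn⟩

theorem ker_relMap_injective (hn : 0 < n) (ζ : ℂ) (hζ : IsPrimitiveRoot ζ n)
    (p : (Fin n → ℚ) × (Fin n → ℚ)) (hp : relMap ζ p = 0)
    (hdiv : ∀ g : n.divisors, p.2 (divIdx hn g) = 0) : p = 0 := by
  have hord : orderOf ζ = n := hζ.eq_orderOf.symm
  have key : ∀ k : Fin n, aeval (ζ ^ (k : ℕ)) (polyOf p.1) = -(p.2 k : ℂ) := by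
    intro k
    have h := congrFun hp k
    rw [relMap_apply, Pi.zero_apply] at h
    rw [aeval_polyOf]
    rw [eq_neg_iff_add_eq_zero, ← h]
    congr 1
    apply Finset.sum_congr rfl
    intro j _
    rw [← pow_mul, mul_comm (k : ℕ) (j : ℕ)]
  -- step 1: the second component vanishes
  have h2 : ∀ k : Fin n, p.2 k = 0 := by
    intro k
    have hgdvd : Nat.gcd n k ∣ n := Nat.gcd_dvd_left n k
    have hgmem : Nat.gcd n k ∈ n.divisors := Nat.mem_divisors.mpr ⟨hgdvd, hn.ne'⟩
    have h0 := key (divIdx hn ⟨Nat.gcd n k, hgmem⟩)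
    rw [hdiv] at h0
    have hpow : ζ ^ ((divIdx hn ⟨Nat.gcd n k, hgmem⟩ : Fin n) : ℕ) = ζ ^ (Nat.gcd n k) := by
      show ζ ^ (Nat.gcd n k % n) = ζ ^ (Nat.gcd n k)
      have h5 := pow_mod_orderOf ζ (Nat.gcd n k)
      rw [hord] at h5
      exact h5
    rw [hpow] at h0
    simp only [Rat.cast_zero, neg_zero] at h0
    have hd := minpoly.dvd ℚ (ζ ^ (Nat.gcd n k)) h0
    have hmin : minpoly ℚ (ζ ^ (Nat.gcd n k)) = minpoly ℚ (ζ ^ (k : ℕ)) := by
      apply minpoly_pow_eq hn ζ hζ
      exact Nat.gcd_eq_right (Nat.gcd_dvd_left n k) |>.trans rfl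
    rw [hmin] at hd
    obtain ⟨q, hq⟩ := hd
    have h1 := key k
    rw [hq, map_mul, minpoly.aeval, zero_mul] at h1
    have h3 : (p.2 k : ℂ) = 0 := by
      have := h1.symm
      simpa using this
    exact_mod_cast h3
  -- step 2: the polynomial vanishes at all powers, hence is zero
  have hP : polyOf p.1 = 0 := by
    by_contra hne
    have hdeg : (polyOf p.1).natDegree < n := by
      rw [natDegree_lt_iff_degree_lt hne, degree_lt_iff_coeff_zero]
      exact fun m hm => coeff_polyOf_ge p.1 m hm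
    have hmapne : (polyOf p.1).map (algebraMap ℚ ℂ) ≠ 0 := by
      rwa [Ne, Polynomial.map_eq_zero]
    apply hmapne
    apply eq_zero_of_natDegree_lt_card_of_eval_eq_zero ((polyOf p.1).map (algebraMap ℚ ℂ))
      (f := fun k : Fin n => ζ ^ (k : ℕ))
    · intro i j hij
      exact Fin.ext (hζ.pow_inj i.isLt j.isLt hij)
    · intro k
      rw [eval_map_algebraMap, key k, h2 k]
      simp
    · rw [Fintype.card_fin]
      exact lt_of_le_of_lt natDegree_map_le hdeg
  have h1 : ∀ j : Fin n, p.1 j = 0 := by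
    intro j
    rw [← coeff_polyOf p.1 j, hP, coeff_zero]
  ext k
  · exact h1 k
  · exact h2 k

/-- If all Fourier rows lie in the rational span of the standard basis and a finite set `W`,
then `W` has at least `n - d(n)` elements, where `d(n)` is the number of divisors of `n`. -/
theorem dft_rank (hn : 0 < n) (ζ : ℂ) (hζ : IsPrimitiveRoot ζ n) (W : Finset (Fin n → ℂ))
    (h : ∀ j : Fin n, (fun k : Fin n => ζ ^ ((j : ℕ) * (k : ℕ))) ∈
      Submodule.span ℚ (Set.range (ev n) ∪ (W : Set (Fin n → ℂ)))) :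
    n ≤ W.card + n.divisors.card := by
  classical
  set V := Submodule.span ℚ (Set.range (ev n) ∪ (W : Set (Fin n → ℂ))) with hV
  -- the range of the relation map lies in `V`
  have hrange : LinearMap.range (relMap (n := n) ζ) ≤ V := by
    rintro _ ⟨p, rfl⟩
    rw [relMap_eq]
    apply Submodule.add_mem
    · exact Submodule.sum_mem _ (fun j _ => Submodule.smul_mem _ _ (h j))
    · exact Submodule.sum_mem _ (fun k _ =>
        Submodule.smul_mem _ _ (Submodule.subset_span (Or.inl ⟨k, rfl⟩)))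
  -- `V` is spanned by at most `n + |W|` vectors
  have hVeq : V = Submodule.span ℚ ((univ.image (ev n) ∪ W : Finset (Fin n → ℂ)) : Set (Fin n → ℂ)) := by
    rw [hV]; congr 1; simp
  have hVfin : Module.Finite ℚ V := by
    rw [hVeq]; exact Module.Finite.span_finset ℚ _
  have hVrank : Module.finrank ℚ V ≤ n + W.card := by
    rw [hVeq]
    refine (finrank_span_finset_le_card _).trans ?_
    refine (Finset.card_union_le _ _).trans ?_
    have := Finset.card_image_le (s := (univ : Finset (Fin n))) (f := ev n)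
    simp only [Finset.card_univ, Fintype.card_fin] at this
    omega
  have h1 : Module.finrank ℚ (LinearMap.range (relMap (n := n) ζ)) ≤ n + W.card :=
    (Submodule.finrank_mono hrange).trans hVrank
  -- rank-nullity
  have h2 := LinearMap.finrank_range_add_finrank_ker (relMap (n := n) ζ)
  rw [Module.finrank_prod, Module.finrank_fin_fun] at h2
  -- the kernel injects into the functions on the divisors
  let ψ : LinearMap.ker (relMap (n := n) ζ) →ₗ[ℚ] (n.divisors → ℚ) :=
    (LinearMap.funLeft ℚ ℚ (divIdx hn)) ∘ₗ (LinearMap.snd ℚ (Fin n → ℚ) (Fin n → ℚ)) ∘ₗ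
      (LinearMap.ker (relMap (n := n) ζ)).subtype
  have hψ : Function.Injective ψ := by
    rw [← LinearMap.ker_eq_bot, LinearMap.ker_eq_bot']
    intro x hx
    have hx0 : relMap ζ (x : (Fin n → ℚ) × (Fin n → ℚ)) = 0 := x.2
    have hdiv : ∀ g : n.divisors, (x : (Fin n → ℚ) × (Fin n → ℚ)).2 (divIdx hn g) = 0 := by
      intro g
      exact congrFun hx g
    exact Subtype.ext (ker_relMap_injective hn ζ hζ _ hx0 hdiv)
  have h3 := LinearMap.finrank_le_finrank_of_injective hψ
  rw [Module.finrank_fintype_fun_eq_card, Fintype.card_coe] at h3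
  omega

end Vale.Agent.Lib.P344
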