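import Vale.Agent.Lib.P344.Circuit

/-!
# Weights of gates (P344)
-/

namespace Vale.Agent.Lib.P344

variable {n : ℕ}

/-- The weight of a gate: `4` for an addition or subtraction, `max 1 |c|^2` for the
multiplication by the scalar `c`. -/
noncomputable def Gate.wt : Gate n → ℝ
  | .add _ _ => 4
  | .sub _ _ => 4
  | .smul c _ => max 1 (‖c‖ ^ 2)

/-- The modulus `|c|` of the scalar of a scalar multiplication gate, and `0` for an addition or
subtraction gate. -/
noncomputable def Gate.scal : Gate n → ℝ
  | .add _ _ => 0
  | .sub _ _ => 0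
  | .smul c _ => ‖c‖

end Vale.Agent.Lib.P344
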