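import Vale.Agent.Lib.P344.Lower
import Vale.Agent.Lib.P344.Gram
import Vale.Agent.Lib.P344.Weights

/-!
# A determinant-type lower bound that tolerates exceptional gates (P344)
-/

namespace Vale.Agent.Lib.P344

open Matrix
open scoped ComplexOrder

variable {n d : ℕ}

theorem Gate.one_le_wt (g : Gate n) : 1 ≤ g.wt := by
  cases g with
  | add u v => simp [Gate.wt]
  | sub u v => simp [Gate.wt]
  | smul c u => simp [Gate.wt]

/-- The functional `y ↦ (v ᵥ* Q) ⬝ᵥ y` is dominated by the quadratic form of `A`. -/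
def Lev (Q : Matrix (Fin n) (Fin d) ℂ) (A : Matrix (Fin d) (Fin d) ℂ) (v : Fin n → ℂ) : Prop :=
  ∀ y : Fin d → ℂ, ‖(v ᵥ* Q) ⬝ᵥ y‖ ^ 2 ≤ qf A y

theorem lev_of_vecMul_eq_zero (Q : Matrix (Fin n) (Fin d) ℂ) {A : Matrix (Fin d) (Fin d) ℂ}
    (hA : A.PosDef) (v : Fin n → ℂ) (hv : v ᵥ* Q = 0) : Lev Q A v := by
  intro y
  rw [hv]
  simpa using qf_nonneg hA y

theorem lev_zero (Q : Matrix (Fin n) (Fin d) ℂ) {A : Matrix (Fin d) (Fin d) ℂ}
    (hA : A.PosDef) : Lev Q A 0 :=
  lev_of_vecMul_eq_zero Q hA 0 (by simp)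

theorem re_star_dotProduct_self {m : ℕ} (v : Fin m → ℂ) :
    (star v ⬝ᵥ v).re = ∑ k, ‖v k‖ ^ 2 := by
  simp only [dotProduct, Pi.star_apply, Complex.re_sum]
  apply Finset.sum_congr rfl
  intro k _
  rw [Complex.star_def, mul_comm, Complex.mul_conj, Complex.normSq_eq_norm_sq, Complex.ofReal_re]

theorem lev_ev (Q : Matrix (Fin n) (Fin d) ℂ) (hQ : Qᴴ * Q = 1) (i : Fin n) :
    Lev Q 1 (ev n i) := by
  intro y
  have h1 : (ev n i ᵥ* Q) ⬝ᵥ y = (Q *ᵥ y) i := by
    simp [ev, mulVec, dotProduct, vecMul, Pi.single_apply]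
  have h2 : qf (1 : Matrix (Fin d) (Fin d) ℂ) y = ∑ k, ‖(Q *ᵥ y) k‖ ^ 2 := by
    unfold qf
    rw [← re_star_dotProduct_self, star_mulVec, ← dotProduct_mulVec, mulVec_mulVec, hQ]
  rw [h1, h2]
  exact Finset.single_le_sum (f := fun k => ‖(Q *ᵥ y) k‖ ^ 2) (fun k _ => sq_nonneg _)
    (Finset.mem_univ i)

theorem lev_src (Q : Matrix (Fin n) (Fin d) ℂ) {A : Matrix (Fin d) (Fin d) ℂ} (hA : A.PosDef)
    (hin : ∀ i, Lev Q A (ev n i)) (vals : List (Fin n → ℂ)) (hvals : ∀ v ∈ vals, Lev Q A v)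
    (s : Src n) : Lev Q A (s.read (ev n) vals) := by
  rcases Src.read_cases (ev n) vals s with h0 | ⟨i, hi⟩ | hm
  · rw [h0]; exact lev_zero Q hA
  · rw [hi]; exact hin i
  · exact hvals _ hm

/-- One pass over the circuit: a positive definite matrix dominating all computed forms whose
determinant is at most the product of the weights of the non-exceptional gates. -/
theorem pass (Q : Matrix (Fin n) (Fin d) ℂ) (hQ : Qᴴ * Q = 1) (exc : Gate n → Bool)
    (G : List (Gate n))
    (hexc : ∀ p ∈ G.zip (run (ev n) G), exc p.1 = true → p.2 ᵥ* Q = 0) :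
    ∃ A : Matrix (Fin d) (Fin d) ℂ, A.PosDef ∧ (∀ i, Lev Q A (ev n i)) ∧
      (∀ v ∈ run (ev n) G, Lev Q A v) ∧
      A.det.re ≤ ((G.filter (fun g => !exc g)).map Gate.wt).prod := by
  induction G using List.reverseRecOn with
  | nil =>
    refine ⟨1, PosDef.one, fun i => lev_ev Q hQ i, by simp, by simp⟩
  | append_singleton gs g ih =>
    have hzip : (gs ++ [g]).zip (run (ev n) (gs ++ [g]))
        = gs.zip (run (ev n) gs) ++ [(g, g.eval (ev n) (run (ev n) gs))] := by
      rw [run_concat, List.zip_append (by rw [length_run])]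
      rfl
    rw [hzip] at hexc
    obtain ⟨A, hA, hin, hvals, hdet⟩ := ih (fun p hp => hexc p (List.mem_append_left _ hp))
    have hlast := hexc (g, g.eval (ev n) (run (ev n) gs)) (by simp)
    rw [run_concat]
    have hsrc := lev_src Q hA hin (run (ev n) gs) hvals
    by_cases hg : exc g = true
    · -- exceptional gate: nothing changes
      refine ⟨A, hA, hin, ?_, ?_⟩
      · intro v hv
        rw [List.mem_append, List.mem_singleton] at hv
        rcases hv with hv | rfl
        · exact hvals v hv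
        · exact lev_of_vecMul_eq_zero Q hA _ (hlast hg)
      · simpa [List.filter_append, hg] using hdet
    · -- ordinary gate: rank-one update with the weight of the gate
      have key : ∀ w : Fin n → ℂ, (∀ y : Fin d → ℂ, ‖(w ᵥ* Q) ⬝ᵥ y‖ ^ 2 ≤ g.wt * qf A y) →
          ∃ A' : Matrix (Fin d) (Fin d) ℂ, A'.PosDef ∧ (∀ i, Lev Q A' (ev n i)) ∧
            (∀ v ∈ run (ev n) gs ++ [w], Lev Q A' v) ∧
            A'.det.re ≤ (((gs ++ [g]).filter (fun g => !exc g)).map Gate.wt).prod := by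
        intro w hw
        obtain ⟨A', hA', hmono, hnew, hdet'⟩ := update_step A hA (w ᵥ* Q) g.wt g.one_le_wt hw
        refine ⟨A', hA', fun i y => (hin i y).trans (hmono y), ?_, ?_⟩
        · intro v hv
          rw [List.mem_append, List.mem_singleton] at hv
          rcases hv with hv | rfl
          · exact fun y => (hvals v hv y).trans (hmono y)
          · exact hnew
        · have hgf : exc g = false := by simpa using hg
          simp only [List.filter_append, List.map_append, List.prod_append, List.filter_cons,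
            List.filter_nil, hgf, Bool.not_false, if_true, List.map_cons, List.map_nil,
            List.prod_cons, List.prod_nil, mul_one]
          have hwt : 0 ≤ g.wt := le_trans zero_le_one g.one_le_wt
          calc A'.det.re ≤ g.wt * A.det.re := hdet'
            _ ≤ g.wt * ((gs.filter (fun g => !exc g)).map Gate.wt).prod :=
                mul_le_mul_of_nonneg_left hdet hwt
            _ = _ := mul_comm _ _
      cases g with
      | add u v =>
        apply key
        intro y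
        have hu := hsrc u y
        have hv := hsrc v y
        have hq := qf_nonneg hA y
        simp only [Gate.eval, Gate.wt, add_vecMul, add_dotProduct]
        have hn := norm_add_le ((u.read (ev n) (run (ev n) gs) ᵥ* Q) ⬝ᵥ y)
          ((v.read (ev n) (run (ev n) gs) ᵥ* Q) ⬝ᵥ y)
        nlinarith [norm_nonneg ((u.read (ev n) (run (ev n) gs) ᵥ* Q) ⬝ᵥ y),
          norm_nonneg ((v.read (ev n) (run (ev n) gs) ᵥ* Q) ⬝ᵥ y),
          norm_nonneg ((u.read (ev n) (run (ev n) gs) ᵥ* Q) ⬝ᵥ y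
            + (v.read (ev n) (run (ev n) gs) ᵥ* Q) ⬝ᵥ y),
          sq_nonneg (‖(u.read (ev n) (run (ev n) gs) ᵥ* Q) ⬝ᵥ y‖
            - ‖(v.read (ev n) (run (ev n) gs) ᵥ* Q) ⬝ᵥ y‖)]
      | sub u v =>
        apply key
        intro y
        have hu := hsrc u y
        have hv := hsrc v y
        have hq := qf_nonneg hA y
        simp only [Gate.eval, Gate.wt, sub_vecMul, sub_dotProduct]
        have hn := norm_sub_le ((u.read (ev n) (run (ev n) gs) ᵥ* Q) ⬝ᵥ y)
          ((v.read (ev n) (run (ev n) gs) ᵥ* Q) ⬝ᵥ y)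
        nlinarith [norm_nonneg ((u.read (ev n) (run (ev n) gs) ᵥ* Q) ⬝ᵥ y),
          norm_nonneg ((v.read (ev n) (run (ev n) gs) ᵥ* Q) ⬝ᵥ y),
          norm_nonneg ((u.read (ev n) (run (ev n) gs) ᵥ* Q) ⬝ᵥ y
            - (v.read (ev n) (run (ev n) gs) ᵥ* Q) ⬝ᵥ y),
          sq_nonneg (‖(u.read (ev n) (run (ev n) gs) ᵥ* Q) ⬝ᵥ y‖
            - ‖(v.read (ev n) (run (ev n) gs) ᵥ* Q) ⬝ᵥ y‖)]
      | smul c u =>
        apply key
        intro y
        have hu := hsrc u y
        have hq := qf_nonneg hA y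
        simp only [Gate.eval, Gate.wt, smul_vecMul, smul_dotProduct, smul_eq_mul, norm_mul,
          mul_pow]
        calc ‖c‖ ^ 2 * ‖(u.read (ev n) (run (ev n) gs) ᵥ* Q) ⬝ᵥ y‖ ^ 2
            ≤ ‖c‖ ^ 2 * qf A y := mul_le_mul_of_nonneg_left hu (sq_nonneg _)
          _ ≤ max 1 (‖c‖ ^ 2) * qf A y := mul_le_mul_of_nonneg_right (le_max_right _ _) hq

end Vale.Agent.Lib.P344
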