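import Vale.Agent.Lib.P344.RobustMain

/-!
# Corollaries of the robust determinant bound (P344)
-/

namespace Vale.Agent.Lib.P344

open Matrix

variable {n : ℕ}

/-- The symbolic values of the outputs of a circuit computing the Fourier transform. -/
theorem out_rows (n : ℕ) (gates : List (Gate n)) (out : Fin n → Src n)
    (hcomp : ∀ (x : Fin n → ℂ) (j : Fin n),
      (out j).read x (run x gates) =
        ∑ k : Fin n, Complex.exp (2 * Real.pi * Complex.I / n) ^ ((j : ℕ) * (k : ℕ)) * x k)
    (j : Fin n) :
    (out j).read (ev n) (run (ev n) gates) =
      fun k : Fin n => Complex.exp (2 * Real.pi * Complex.I / n) ^ ((j : ℕ) * (k : ℕ)) :=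
  out_vec gates (out j) _ (fun x => hcomp x j)

theorem prod_wt_le (B : ℝ) (hB : 1 ≤ B) (gates : List (Gate n)) :
    ((gates.filter (fun g => !decide (B < g.scal))).map Gate.wt).prod ≤
      4 ^ (gates.countP Gate.isSum) *
        B ^ (2 * (gates.filter (fun g => decide (1 < g.scal ∧ g.scal ≤ B))).length) := by
  induction gates with
  | nil => simp
  | cons g gs ih =>
    have hB0 : (0 : ℝ) ≤ B := by linarith
    have hpos : (0 : ℝ) ≤ 4 ^ (gs.countP Gate.isSum) *
        B ^ (2 * (gs.filter (fun g => decide (1 < g.scal ∧ g.scal ≤ B))).length) := by positivity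
    cases g with
    | add u v =>
      have h1 : ¬ (B < (Gate.add u v : Gate n).scal) := by simp [Gate.scal]; linarith
      have h2 : ¬ (1 < (Gate.add u v : Gate n).scal ∧ (Gate.add u v : Gate n).scal ≤ B) := by
        simp [Gate.scal]
      simp only [List.filter_cons, h1, h2, decide_false, Bool.not_false, if_true, List.map_cons,
        List.prod_cons, List.countP_cons, Gate.isSum, Gate.wt, Bool.false_eq_true, if_false]
      rw [pow_succ]
      nlinarith
    | sub u v =>
      have h1 : ¬ (B < (Gate.sub u v : Gate n).scal) := by simp [Gate.scal]; linarith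
      have h2 : ¬ (1 < (Gate.sub u v : Gate n).scal ∧ (Gate.sub u v : Gate n).scal ≤ B) := by
        simp [Gate.scal]
      simp only [List.filter_cons, h1, h2, decide_false, Bool.not_false, if_true, List.map_cons,
        List.prod_cons, List.countP_cons, Gate.isSum, Gate.wt, Bool.false_eq_true, if_false]
      rw [pow_succ]
      nlinarith
    | smul c u =>
      by_cases hbig : B < ‖c‖
      · have h1 : B < (Gate.smul c u : Gate n).scal := hbig
        have h2 : ¬ (1 < (Gate.smul c u : Gate n).scal ∧ (Gate.smul c u : Gate n).scal ≤ B) := by
          simp only [Gate.scal]; intro h; linarith [h.2]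
        simp only [List.filter_cons, h1, h2, decide_true, decide_false, Bool.not_true,
          Bool.false_eq_true, if_false, List.countP_cons, Gate.isSum, add_zero]
        exact ih
      · have h1 : ¬ (B < (Gate.smul c u : Gate n).scal) := hbig
        by_cases hmid : 1 < ‖c‖
        · have h2 : 1 < (Gate.smul c u : Gate n).scal ∧ (Gate.smul c u : Gate n).scal ≤ B :=
            ⟨hmid, not_lt.mp hbig⟩
          simp only [List.filter_cons, h1, h2, decide_true, decide_false, Bool.not_false, if_true,
            List.map_cons, List.prod_cons, List.countP_cons, Gate.isSum, Gate.wt,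
            Bool.false_eq_true, if_false, add_zero, List.length_cons, and_self]
          have hc : max 1 (‖c‖ ^ 2) ≤ B ^ 2 := by
            apply max_le
            · nlinarith
            · exact pow_le_pow_left₀ (norm_nonneg c) (not_lt.mp hbig) 2
          have hexp : 2 * ((gs.filter (fun g => decide (1 < g.scal ∧ g.scal ≤ B))).length + 1)
              = 2 * (gs.filter (fun g => decide (1 < g.scal ∧ g.scal ≤ B))).length + 2 := by ring
          rw [hexp, pow_add]
          have hw : (0 : ℝ) ≤ ((gs.filter (fun g => !decide (B < g.scal))).map Gate.wt).prod := by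
            apply List.prod_nonneg
            intro x hx
            obtain ⟨g, -, rfl⟩ := List.mem_map.mp hx
            exact le_trans zero_le_one g.one_le_wt
          calc max 1 (‖c‖ ^ 2) * ((gs.filter (fun g => !decide (B < g.scal))).map Gate.wt).prod
              ≤ B ^ 2 * (4 ^ (gs.countP Gate.isSum) *
                B ^ (2 * (gs.filter (fun g => decide (1 < g.scal ∧ g.scal ≤ B))).length)) :=
                mul_le_mul hc ih hw (by positivity)
            _ = _ := by ring
        · have h2 : ¬ (1 < (Gate.smul c u : Gate n).scal ∧ (Gate.smul c u : Gate n).scal ≤ B) := by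
            simp only [Gate.scal]; intro h; exact hmid h.1
          simp only [List.filter_cons, h1, h2, decide_false, Bool.not_false, if_true,
            List.map_cons, List.prod_cons, List.countP_cons, Gate.isSum, Gate.wt,
            Bool.false_eq_true, if_false, add_zero]
          have hc : max 1 (‖c‖ ^ 2) = 1 := by
            apply max_eq_left
            have := not_lt.mp hmid
            nlinarith [norm_nonneg c]
          rw [hc, one_mul]
          exact ih

/-- Threshold form of the robust determinant bound. -/
theorem robust_threshold (n : ℕ) (hn : 1 ≤ n) (gates : List (Gate n)) (out : Fin n → Src n)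
    (hcomp : ∀ (x : Fin n → ℂ) (j : Fin n),
      (out j).read x (run x gates) =
        ∑ k : Fin n, Complex.exp (2 * Real.pi * Complex.I / n) ^ ((j : ℕ) * (k : ℕ)) * x k)
    (B : ℝ) (hB : 1 ≤ B) :
    ((n - (gates.filter (fun g => decide (B < g.scal))).length : ℕ) : ℝ) ^
        (n - (gates.filter (fun g => decide (B < g.scal))).length) ≤
      4 ^ (gates.countP Gate.isSum) *
        B ^ (2 * (gates.filter (fun g => decide (1 < g.scal ∧ g.scal ≤ B))).length) := by
  have hζ : IsPrimitiveRoot (Complex.exp (2 * Real.pi * Complex.I / n)) n :=
    Complex.isPrimitiveRoot_exp n (by omega)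
  have h := robust_bound n hn gates out _ hζ (out_rows n gates out hcomp)
    (fun g => decide (B < g.scal))
  rw [List.countP_eq_length_filter] at h
  exact h.trans (prod_wt_le B hB gates)

end Vale.Agent.Lib.P344
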