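import Vale.Agent.Lib.P344.Robust

/-!
# The robust determinant bound for the discrete Fourier transform (P344)
-/

namespace Vale.Agent.Lib.P344

open Matrix
open scoped ComplexOrder

/-- An isometric frame annihilated by at most `k` given linear forms. -/
theorem exists_frame (n k : ℕ) (Z : List (Fin n → ℂ)) (hZ : Z.length ≤ k) :
    ∃ Q : Matrix (Fin n) (Fin (n - k)) ℂ, Qᴴ * Q = 1 ∧ ∀ z ∈ Z, z ᵥ* Q = 0 := by
  classical
  let E := EuclideanSpace ℂ (Fin n)
  let M : Matrix (Fin Z.length) (Fin n) ℂ := Matrix.of fun j i => Z.get j i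
  let Φ : E →ₗ[ℂ] (Fin Z.length → ℂ) :=
    (Matrix.toLin' M) ∘ₗ (WithLp.linearEquiv 2 ℂ (Fin n → ℂ)).toLinearMap
  have hΦ : ∀ x : E, Φ x = M *ᵥ x.ofLp := fun x => rfl
  let V : Submodule ℂ E := LinearMap.ker Φ
  have hrank : n - k ≤ Module.finrank ℂ V := by
    have h1 := LinearMap.finrank_range_add_finrank_ker Φ
    rw [finrank_euclideanSpace_fin] at h1
    have h2 : Module.finrank ℂ (LinearMap.range Φ) ≤ Z.length := by
      have := Submodule.finrank_le (LinearMap.range Φ)
      rwa [Module.finrank_fin_fun] at this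
    have h3 : Module.finrank ℂ (LinearMap.ker Φ) = Module.finrank ℂ V := rfl
    omega
  let b := stdOrthonormalBasis ℂ V
  let col : Fin (n - k) → E := fun j => ((b (Fin.castLE hrank j) : V) : E)
  have horth : ∀ j j' : Fin (n - k), inner ℂ (col j) (col j') = if j = j' then (1 : ℂ) else 0 := by
    intro j j'
    have h := orthonormal_iff_ite.mp b.orthonormal (Fin.castLE hrank j) (Fin.castLE hrank j')
    rw [Submodule.coe_inner] at h
    rw [show inner ℂ (col j) (col j') = inner ℂ ((b (Fin.castLE hrank j) : V) : E)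
      ((b (Fin.castLE hrank j') : V) : E) from rfl, h]
    simp [Fin.castLE_inj]
  refine ⟨Matrix.of fun i j => (col j).ofLp i, ?_, ?_⟩
  · ext j j'
    have h := horth j j'
    rw [EuclideanSpace.inner_eq_star_dotProduct] at h
    rw [Matrix.mul_apply, Matrix.one_apply, ← h]
    simp [dotProduct, mul_comm]
  · intro z hz
    obtain ⟨j₀, rfl⟩ := List.mem_iff_get.mp hz
    ext j
    have hmem : col j ∈ V := (b (Fin.castLE hrank j)).2
    have h0 : Φ (col j) = 0 := LinearMap.mem_ker.mp hmem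
    have h1 := congrFun h0 j₀
    rw [hΦ] at h1
    simpa [mulVec, vecMul, dotProduct, M] using h1


/-- Orthogonality of the columns of the Fourier matrix. -/
theorem dft_orth {n : ℕ} (hn : 0 < n) (ζ : ℂ) (hζ : IsPrimitiveRoot ζ n) (k l : Fin n) :
    ∑ j : Fin n, star (ζ ^ ((j : ℕ) * (k : ℕ))) * ζ ^ ((j : ℕ) * (l : ℕ))
      = if k = l then (n : ℂ) else 0 := by
  have hz0 : ζ ≠ 0 := hζ.ne_zero hn.ne'
  have hnorm : ‖ζ‖ = 1 := hζ.norm'_eq_one hn.ne'
  have hstar : star ζ = ζ⁻¹ := by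
    rw [Complex.star_def, Complex.inv_eq_conj hnorm]
  have hterm : ∀ j : Fin n, star (ζ ^ ((j : ℕ) * (k : ℕ))) * ζ ^ ((j : ℕ) * (l : ℕ))
      = (ζ ^ (l : ℕ) * (ζ ^ (k : ℕ))⁻¹) ^ (j : ℕ) := by
    intro j
    rw [star_pow, hstar, mul_pow, inv_pow, inv_pow, ← pow_mul, ← pow_mul,
      mul_comm (j : ℕ) (k : ℕ), mul_comm (j : ℕ) (l : ℕ), mul_comm]
  rw [Finset.sum_congr rfl (fun j _ => hterm j),
    Fin.sum_univ_eq_sum_range (fun j => (ζ ^ (l : ℕ) * (ζ ^ (k : ℕ))⁻¹) ^ j) n]
  by_cases hkl : k = l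
  · subst hkl
    rw [mul_inv_cancel₀ (pow_ne_zero _ hz0)]
    simp
  · rw [if_neg hkl]
    have hne : ζ ^ (l : ℕ) * (ζ ^ (k : ℕ))⁻¹ ≠ 1 := by
      intro h
      apply hkl
      have h2 : ζ ^ (l : ℕ) = ζ ^ (k : ℕ) := by
        have := congrArg (fun z => z * ζ ^ (k : ℕ)) h
        simpa [mul_assoc, inv_mul_cancel₀ (pow_ne_zero _ hz0)] using this
      exact (Fin.ext (hζ.pow_inj l.isLt k.isLt h2)).symm
    rw [geom_sum_eq hne]
    have hpow : (ζ ^ (l : ℕ) * (ζ ^ (k : ℕ))⁻¹) ^ n = 1 := by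
      rw [mul_pow, inv_pow, ← pow_mul, ← pow_mul, mul_comm (l : ℕ) n, mul_comm (k : ℕ) n,
        pow_mul, pow_mul, hζ.pow_eq_one]
      simp
    rw [hpow, sub_self, zero_div]

/-- The robust determinant bound: for any Boolean test `exc` marking exceptional gates, the
product of the weights of the non-exceptional gates of a circuit computing the Fourier transform
is at least `(n - k)^(n - k)`, where `k` is the number of exceptional gates. -/
theorem robust_bound (n : ℕ) (hn : 1 ≤ n) (gates : List (Gate n)) (out : Fin n → Src n)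
    (ζ : ℂ) (hζ : IsPrimitiveRoot ζ n)
    (hr : ∀ j : Fin n, (out j).read (ev n) (run (ev n) gates)
      = fun k : Fin n => ζ ^ ((j : ℕ) * (k : ℕ)))
    (exc : Gate n → Bool) :
    ((n - gates.countP exc : ℕ) : ℝ) ^ (n - gates.countP exc) ≤
      ((gates.filter (fun g => !exc g)).map Gate.wt).prod := by
  classical
  set k := gates.countP exc with hk
  set Z : List (Fin n → ℂ) :=
    ((gates.zip (run (ev n) gates)).filter (fun p => exc p.1)).map Prod.snd with hZdef
  have hZlen : Z.length ≤ k := by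
    rw [hZdef, List.length_map, hk]
    have h1 : ((gates.zip (run (ev n) gates)).filter (fun p => exc p.1)).length
        = (gates.zip (run (ev n) gates)).countP (fun p => exc p.1) := by
      rw [List.countP_eq_length_filter]
    have h2 : (gates.zip (run (ev n) gates)).countP (fun p => exc p.1)
        = ((gates.zip (run (ev n) gates)).map Prod.fst).countP exc := by
      rw [List.countP_map]; rfl
    have h3 : (gates.zip (run (ev n) gates)).map Prod.fst = gates := by
      apply List.map_fst_zip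
      rw [length_run]
    rw [h1, h2, h3]
  obtain ⟨Q, hQ, hZ⟩ := exists_frame n k Z hZlen
  have hexc : ∀ p ∈ gates.zip (run (ev n) gates), exc p.1 = true → p.2 ᵥ* Q = 0 := by
    intro p hp hpe
    apply hZ
    rw [hZdef]
    exact List.mem_map.mpr ⟨p, List.mem_filter.mpr ⟨hp, hpe⟩, rfl⟩
  obtain ⟨A, hA, hin, hvals, hdet⟩ := pass Q hQ exc gates hexc
  refine le_trans ?_ hdet
  apply det_ge_of_trace_inv_le A hA
  -- the trace bound
  let F : Matrix (Fin n) (Fin n) ℂ := Matrix.of fun j k => ζ ^ ((j : ℕ) * (k : ℕ))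
  let M : Matrix (Fin n) (Fin (n - k)) ℂ := F * Q
  have hFF : Fᴴ * F = (n : ℂ) • (1 : Matrix (Fin n) (Fin n) ℂ) := by
    ext a b
    rw [Matrix.mul_apply, Matrix.smul_apply, Matrix.one_apply]
    have := dft_orth (by omega) ζ hζ a b
    simp only [conjTranspose_apply, F, Matrix.of_apply]
    rw [this]
    split_ifs <;> simp
  have hMM : Mᴴ * M = (n : ℂ) • (1 : Matrix (Fin (n - k)) (Fin (n - k)) ℂ) := by
    show (F * Q)ᴴ * (F * Q) = _
    rw [conjTranspose_mul, Matrix.mul_assoc, ← Matrix.mul_assoc Fᴴ, hFF, Matrix.smul_mul,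
      Matrix.one_mul, Matrix.mul_smul, hQ]
  have hrow : ∀ j : Fin n, ((M * A⁻¹ * Mᴴ) j j).re ≤ 1 := by
    intro j
    have hlev : Lev Q A (fun k : Fin n => ζ ^ ((j : ℕ) * (k : ℕ))) := by
      rw [← hr j]
      exact lev_src Q hA hin _ hvals (out j)
    have hMj : M j = (fun k : Fin n => ζ ^ ((j : ℕ) * (k : ℕ))) ᵥ* Q := by
      ext c
      simp [M, F, Matrix.mul_apply, vecMul, dotProduct]
    have h1 := (lev_le hA (M j) 1 zero_le_one (by
      intro y
      rw [hMj, one_mul]
      exact hlev y)).2.2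
    have h2 : (M * A⁻¹ * Mᴴ) j j = M j ⬝ᵥ (A⁻¹ *ᵥ star (M j)) := by
      simp only [Matrix.mul_apply, dotProduct, mulVec, conjTranspose_apply, Pi.star_apply,
        Finset.sum_mul, Finset.mul_sum]
      rw [Finset.sum_comm]
      apply Finset.sum_congr rfl
      intro a _
      apply Finset.sum_congr rfl
      intro b _
      ring
    rw [h2]
    exact h1
  have htrace : (M * A⁻¹ * Mᴴ).trace = (n : ℂ) * (A⁻¹).trace := by
    rw [trace_mul_cycle, hMM, Matrix.smul_mul, Matrix.one_mul, trace_smul, smul_eq_mul]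
  have hsum : (n : ℝ) * (A⁻¹).trace.re ≤ n := by
    have h1 : ((M * A⁻¹ * Mᴴ).trace).re = (n : ℝ) * (A⁻¹).trace.re := by
      rw [htrace]
      simp
    rw [← h1]
    simp only [Matrix.trace, Matrix.diag_apply, Complex.re_sum]
    calc ∑ j : Fin n, ((M * A⁻¹ * Mᴴ) j j).re ≤ ∑ _j : Fin n, (1 : ℝ) :=
          Finset.sum_le_sum (fun j _ => hrow j)
      _ = n := by simp
  have hnpos : (0 : ℝ) < n := by exact_mod_cast hn
  nlinarith

end Vale.Agent.Lib.P344
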